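import Vale.Agent.Lib.P113.FlowDefs
namespace Vale.Agent.Lib.P113
open Set Filter Topology
open scoped ContDiff

/-! ### the step `sg`, the bump `bt`, the time profile `sgt`, `th`, `th'` -/

theorem sg_contDiff : ContDiff ℝ ∞ sg := Real.smoothTransition.contDiff

/-- iterated derivatives of an affine reparametrisation -/
theorem iteratedDeriv_comp_affine {g : ℝ → ℝ} (hg : ContDiff ℝ ∞ g) (a b : ℝ) (k : ℕ) :
    iteratedDeriv k (fun s => g (a * s + b)) = fun s => a ^ k * iteratedDeriv k g (a * s + b) := by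
  have h1 : ContDiff ℝ k (fun z => g (z + b)) :=
    (hg.comp (by fun_prop : ContDiff ℝ ∞ (fun z : ℝ => z + b))).of_le (by exact_mod_cast le_top)
  have h2 := iteratedDeriv_comp_const_mul h1 a
  rw [h2, iteratedDeriv_comp_add_const]

theorem bt_contDiff : ContDiff ℝ ∞ bt := by
  unfold bt
  exact (sg_contDiff.comp (by fun_prop)).sub (sg_contDiff.comp (by fun_prop))
theorem sgt_contDiff : ContDiff ℝ ∞ sgt := by
  unfold sgt
  exact sg_contDiff.comp (by fun_prop)
theorem th_contDiff : ContDiff ℝ ∞ th := (contDiff_infty_iff_deriv.1 sgt_contDiff).2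
theorem th'_contDiff : ContDiff ℝ ∞ th' := (contDiff_infty_iff_deriv.1 th_contDiff).2
theorem hasDerivAt_sgt (s : ℝ) : HasDerivAt sgt (th s) s :=
  ((contDiff_infty_iff_deriv.1 sgt_contDiff).1 s).hasDerivAt
theorem hasDerivAt_th (s : ℝ) : HasDerivAt th (th' s) s :=
  ((contDiff_infty_iff_deriv.1 th_contDiff).1 s).hasDerivAt
theorem sgt_of_le {s : ℝ} (h : s ≤ 1 / 4) : sgt s = 0 :=
  Real.smoothTransition.zero_of_nonpos (by linarith)
theorem sgt_of_ge {s : ℝ} (h : 3 / 4 ≤ s) : sgt s = 1 :=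
  Real.smoothTransition.one_of_one_le (by linarith)
theorem sgt_nonneg (s : ℝ) : 0 ≤ sgt s := Real.smoothTransition.nonneg _
theorem sgt_le_one (s : ℝ) : sgt s ≤ 1 := Real.smoothTransition.le_one _
theorem bt_eq_one {v : ℝ} (h0 : 0 ≤ v) (h1 : v ≤ 1 / 4) : bt v = 1 := by
  have e1 : sg (8 * v + 1) = 1 := Real.smoothTransition.one_of_one_le (by linarith)
  have e2 : sg (8 * v - 2) = 0 := Real.smoothTransition.zero_of_nonpos (by linarith)
  rw [bt, e1, e2]
  norm_num
theorem bt_eq_zero {v : ℝ} (h : v ≤ -(1 / 8) ∨ 3 / 8 ≤ v) : bt v = 0 := by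
  rcases h with h | h
  · have e1 : sg (8 * v + 1) = 0 := Real.smoothTransition.zero_of_nonpos (by linarith)
    have e2 : sg (8 * v - 2) = 0 := Real.smoothTransition.zero_of_nonpos (by linarith)
    rw [bt, e1, e2]
    norm_num
  · have e1 : sg (8 * v + 1) = 1 := Real.smoothTransition.one_of_one_le (by linarith)
    have e2 : sg (8 * v - 2) = 1 := Real.smoothTransition.one_of_one_le (by linarith)
    rw [bt, e1, e2]
    norm_num

/-- derivatives of `sg` of positive order vanish off the open unit interval -/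
theorem iteratedDeriv_sg_eq_zero {k : ℕ} (hk : 0 < k) {s : ℝ} (h : s ≤ 0 ∨ 1 ≤ s) :
    iteratedDeriv k sg s = 0 := by
  have hc : Continuous (iteratedDeriv k sg) :=
    sg_contDiff.continuous_iteratedDeriv k (by exact_mod_cast le_top)
  have hcl : IsClosed {s | iteratedDeriv k sg s = 0} := isClosed_eq hc continuous_const
  rcases h with h | h
  · have hsub : Iio (0 : ℝ) ⊆ {s | iteratedDeriv k sg s = 0} := by
      intro x hx
      have : sg =ᶠ[𝓝 x] fun _ => (0 : ℝ) := by
        filter_upwards [Iio_mem_nhds hx] with y hy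
        exact Real.smoothTransition.zero_of_nonpos (le_of_lt hy)
      show iteratedDeriv k sg x = 0
      rw [this.iteratedDeriv_eq k]
      simp
    have h2 := closure_minimal hsub hcl
    rw [closure_Iio] at h2
    exact h2 h
  · have hsub : Ioi (1 : ℝ) ⊆ {s | iteratedDeriv k sg s = 0} := by
      intro x hx
      have : sg =ᶠ[𝓝 x] fun _ => (1 : ℝ) := by
        filter_upwards [Ioi_mem_nhds hx] with y hy
        exact Real.smoothTransition.one_of_one_le (le_of_lt hy)
      show iteratedDeriv k sg x = 0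
      rw [this.iteratedDeriv_eq k, iteratedDeriv_const, if_neg hk.ne']
    have h2 := closure_minimal hsub hcl
    rw [closure_Ioi] at h2
    exact h2 h
theorem iteratedDeriv_sgt (k : ℕ) (s : ℝ) :
    iteratedDeriv k sgt s = 2 ^ k * iteratedDeriv k sg (2 * s - 1 / 2) := by
  have := congrFun (iteratedDeriv_comp_affine sg_contDiff 2 (-(1 / 2)) k) s
  simp only [← sub_eq_add_neg] at this
  exact this
theorem iteratedDeriv_th (k : ℕ) (s : ℝ) :
    iteratedDeriv k th s = 2 ^ (k + 1) * iteratedDeriv (k + 1) sg (2 * s - 1 / 2) := by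
  rw [← iteratedDeriv_sgt, iteratedDeriv_succ']
  rfl
theorem iteratedDeriv_th' (k : ℕ) (s : ℝ) :
    iteratedDeriv k th' s = 2 ^ (k + 2) * iteratedDeriv (k + 2) sg (2 * s - 1 / 2) := by
  rw [← iteratedDeriv_th, iteratedDeriv_succ']
  rfl
theorem iteratedDeriv_bt (k : ℕ) (v : ℝ) :
    iteratedDeriv k bt v
      = 8 ^ k * (iteratedDeriv k sg (8 * v + 1) - iteratedDeriv k sg (8 * v - 2)) := by
  have h1 : ContDiff ℝ ∞ (fun v : ℝ => sg (8 * v + 1)) := sg_contDiff.comp (by fun_prop)
  have h2 : ContDiff ℝ ∞ (fun v : ℝ => sg (8 * v + -2)) := sg_contDiff.comp (by fun_prop)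
  have hb : bt = (fun v : ℝ => sg (8 * v + 1)) - (fun v : ℝ => sg (8 * v + -2)) := by
    funext v
    simp [bt, sub_eq_add_neg]
  rw [hb, iteratedDeriv_sub (h1.contDiffAt.of_le (by exact_mod_cast le_top))
    (h2.contDiffAt.of_le (by exact_mod_cast le_top)),
    iteratedDeriv_comp_affine sg_contDiff, iteratedDeriv_comp_affine sg_contDiff]
  simp only [← sub_eq_add_neg]
  ring
theorem th_eq_zero {s : ℝ} (h : s ≤ 1 / 4 ∨ 3 / 4 ≤ s) : th s = 0 := by
  have := iteratedDeriv_th 0 s
  rw [iteratedDeriv_zero] at this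
  rw [this, iteratedDeriv_sg_eq_zero (by norm_num) (by rcases h with h | h
                                                       · left; linarith
                                                       · right; linarith)]
  simp
theorem th'_eq_zero {s : ℝ} (h : s ≤ 1 / 4 ∨ 3 / 4 ≤ s) : th' s = 0 := by
  have := iteratedDeriv_th' 0 s
  rw [iteratedDeriv_zero] at this
  rw [this, iteratedDeriv_sg_eq_zero (by norm_num) (by rcases h with h | h
                                                       · left; linarith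
                                                       · right; linarith)]
  simp

/-! ### periodisation in space -/

theorem xi_eq (y : ℝ) : xi y = y - ⌊y + 1 / 4⌋ := by
  unfold xi Int.fract
  ring

theorem xi_add_one (y : ℝ) : xi (y + 1) = xi y := by
  unfold xi
  rw [show y + 1 + 1 / 4 = (y + 1 / 4) + 1 by ring, Int.fract_add_one]
theorem xi_of_mem {y : ℝ} (h0 : -(1 / 4) ≤ y) (h1 : y < 3 / 4) : xi y = y := by
  unfold xi
  rw [Int.fract_eq_self.2 ⟨by linarith, by linarith⟩]
  ring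
theorem xi_mem (y : ℝ) : -(1 / 4) ≤ xi y ∧ xi y < 3 / 4 := by
  unfold xi
  have h0 := Int.fract_nonneg (y + 1 / 4)
  have h1 := Int.fract_lt_one (y + 1 / 4)
  constructor <;> linarith

/-- if `g` vanishes off `[-1/8, 5/8]` then `g ∘ xi` coincides near `y₀` with a translate of `g` -/
theorem comp_xi_eventuallyEq {g : ℝ → ℝ} (hg : ∀ v, v ≤ -(1 / 8) ∨ 5 / 8 ≤ v → g v = 0) (y₀ : ℝ) :
    (fun y => g (xi y)) =ᶠ[𝓝 y₀] fun y => g (y - ⌊y₀ + 1 / 4⌋) := by
  set n : ℤ := ⌊y₀ + 1 / 4⌋ with hn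
  have h0 : (n : ℝ) ≤ y₀ + 1 / 4 := Int.floor_le _
  have h1 : y₀ + 1 / 4 < n + 1 := Int.lt_floor_add_one _
  have hU : Ioo ((n : ℝ) - 1 / 8 - 1 / 4) (n + 1 - 1 / 4) ∈ 𝓝 y₀ :=
    Ioo_mem_nhds (by linarith) (by linarith)
  filter_upwards [hU] with y hy
  obtain ⟨hy0, hy1⟩ := hy
  by_cases hc : (n : ℝ) ≤ y + 1 / 4
  · have : ⌊y + 1 / 4⌋ = n := Int.floor_eq_iff.2 ⟨hc, by linarith⟩
    rw [xi_eq, this]
  · push Not at hc
    have : ⌊y + 1 / 4⌋ = n - 1 := Int.floor_eq_iff.2 ⟨by push_cast; linarith, by push_cast; linarith⟩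
    rw [xi_eq, this, hg _ (Or.inr (by push_cast; linarith)), hg _ (Or.inl (by linarith))]
theorem comp_xi_contDiff {g : ℝ → ℝ} (hs : ContDiff ℝ ∞ g)
    (hg : ∀ v, v ≤ -(1 / 8) ∨ 5 / 8 ≤ v → g v = 0) : ContDiff ℝ ∞ (fun y => g (xi y)) := by
  rw [contDiff_iff_contDiffAt]
  intro y₀
  have h : ContDiff ℝ ∞ (fun y : ℝ => g (y - ⌊y₀ + 1 / 4⌋)) := hs.comp (by fun_prop)
  exact h.contDiffAt.congr_of_eventuallyEq (comp_xi_eventuallyEq hg y₀)
theorem iteratedDeriv_comp_xi {g : ℝ → ℝ} (hg : ∀ v, v ≤ -(1 / 8) ∨ 5 / 8 ≤ v → g v = 0)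
    (k : ℕ) (y : ℝ) : iteratedDeriv k (fun y => g (xi y)) y = iteratedDeriv k g (xi y) := by
  rw [(comp_xi_eventuallyEq hg y).iteratedDeriv_eq k, iteratedDeriv_comp_sub_const, xi_eq]

theorem cell_vanish {N i : ℕ} (h : 4 * i < N) (v : ℝ) (hv : v ≤ -(1 / 8) ∨ 5 / 8 ≤ v) :
    bt (N * v - i) = 0 := by
  have hN : (4 : ℝ) * i + 1 ≤ N := by exact_mod_cast h
  have hi : (0 : ℝ) ≤ i := Nat.cast_nonneg _
  apply bt_eq_zero
  rcases hv with hv | hv
  · left; nlinarith
  · right; nlinarith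

theorem cell_contDiff (N i : ℕ) : ContDiff ℝ ∞ (fun v : ℝ => bt (N * v - i)) :=
  bt_contDiff.comp (by fun_prop)

theorem iteratedDeriv_cell (N i k : ℕ) :
    iteratedDeriv k (fun v : ℝ => bt (N * v - i))
      = fun v => (N : ℝ) ^ k * iteratedDeriv k bt (N * v - i) := by
  have := iteratedDeriv_comp_affine bt_contDiff N (-(i : ℝ)) k
  simp only [← sub_eq_add_neg] at this
  exact this

/-- Leibniz rule for the product with the coordinate -/
theorem iteratedDeriv_id_mul {h : ℝ → ℝ} (hh : ContDiff ℝ ∞ h) (k : ℕ) :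
    iteratedDeriv k (fun v => v * h v)
      = fun v => v * iteratedDeriv k h v + k * iteratedDeriv (k - 1) h v := by
  induction k with
  | zero => funext v; simp
  | succ k ih =>
    rw [iteratedDeriv_succ, ih]
    funext v
    have d1 : HasDerivAt (iteratedDeriv k h) (iteratedDeriv (k + 1) h v) v := by
      rw [iteratedDeriv_succ]
      exact ((hh.differentiable_iteratedDeriv k (by exact_mod_cast WithTop.coe_lt_top _)) v).hasDerivAt
    have d2 : HasDerivAt (fun v => (k : ℝ) * iteratedDeriv (k - 1) h v)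
        ((k : ℝ) * iteratedDeriv k h v) v := by
      rcases k with _ | k
      · simpa using hasDerivAt_const v (0 : ℝ)
      · have : HasDerivAt (iteratedDeriv k h) (iteratedDeriv (k + 1) h v) v := by
          rw [iteratedDeriv_succ]
          exact ((hh.differentiable_iteratedDeriv k
            (by exact_mod_cast WithTop.coe_lt_top _)) v).hasDerivAt
        simpa using this.const_mul ((k + 1 : ℕ) : ℝ)
    have d3 : HasDerivAt (fun v => v * iteratedDeriv k h v + (k : ℝ) * iteratedDeriv (k - 1) h v)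
        (1 * iteratedDeriv k h v + v * iteratedDeriv (k + 1) h v + (k : ℝ) * iteratedDeriv k h v) v :=
      ((hasDerivAt_id v).mul d1).add d2
    rw [d3.deriv]
    simp only [Nat.add_sub_cancel]
    push_cast
    ring

theorem bump0_contDiff (N i : ℕ) : ContDiff ℝ ∞ (bump0 N i) := by
  unfold bump0
  by_cases h : 4 * i < N
  · simp only [h, if_true]
    exact comp_xi_contDiff (cell_contDiff N i) (cell_vanish h)
  · simp only [h, if_false]
    exact contDiff_const
theorem bump1_contDiff (N i : ℕ) : ContDiff ℝ ∞ (bump1 N i) := by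
  unfold bump1
  by_cases h : 4 * i < N
  · simp only [h, if_true]
    exact comp_xi_contDiff (g := fun v => v * bt (N * v - i)) (contDiff_id.mul (cell_contDiff N i))
      (fun v hv => by simp [cell_vanish h v hv])
  · simp only [h, if_false]
    exact contDiff_const
theorem bump0_add_one (N i : ℕ) (y : ℝ) : bump0 N i (y + 1) = bump0 N i y := by
  unfold bump0
  rw [xi_add_one]
theorem bump1_add_one (N i : ℕ) (y : ℝ) : bump1 N i (y + 1) = bump1 N i y := by
  unfold bump1
  rw [xi_add_one]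
theorem iteratedDeriv_bump0 (N i k : ℕ) (y : ℝ) :
    iteratedDeriv k (bump0 N i) y
      = if 4 * i < N then (N : ℝ) ^ k * iteratedDeriv k bt (N * xi y - i) else 0 := by
  unfold bump0
  by_cases h : 4 * i < N
  · simp only [h, if_true]
    rw [iteratedDeriv_comp_xi (g := fun v => bt (N * v - i)) (cell_vanish h), iteratedDeriv_cell]
  · simp only [h, if_false]
    simp
theorem iteratedDeriv_bump1 (N i k : ℕ) (y : ℝ) :
    iteratedDeriv k (bump1 N i) y
      = if 4 * i < N then xi y * ((N : ℝ) ^ k * iteratedDeriv k bt (N * xi y - i))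
          + k * ((N : ℝ) ^ (k - 1) * iteratedDeriv (k - 1) bt (N * xi y - i)) else 0 := by
  unfold bump1
  by_cases h : 4 * i < N
  · simp only [h, if_true]
    rw [iteratedDeriv_comp_xi (g := fun v => v * bt (N * v - i))
      (fun v hv => by simp [cell_vanish h v hv]), iteratedDeriv_id_mul (cell_contDiff N i),
      iteratedDeriv_cell, iteratedDeriv_cell]
  · simp only [h, if_false]
    simp

/-! ### switching in time -/

/-- if `g` vanishes off `[1/4, 3/4]` then `t ↦ g (fract t) • c ⌊t⌋` coincides near `t₀` with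
`t ↦ g (t - ⌊t₀⌋) • c ⌊t₀⌋` -/
theorem switch_eventuallyEq {E : Type*} [AddCommGroup E] [Module ℝ E] {g : ℝ → ℝ}
    (hg : ∀ s, s ≤ 1 / 4 ∨ 3 / 4 ≤ s → g s = 0) (c : ℤ → E) (t₀ : ℝ) :
    (fun t : ℝ => g (Int.fract t) • c ⌊t⌋) =ᶠ[𝓝 t₀] fun t => g (t - ⌊t₀⌋) • c ⌊t₀⌋ := by
  set n : ℤ := ⌊t₀⌋ with hn
  have h0 : (n : ℝ) ≤ t₀ := Int.floor_le _
  have h1 : t₀ < n + 1 := Int.lt_floor_add_one _
  have hU : Ioo ((n : ℝ) - 1 / 4) (n + 1) ∈ 𝓝 t₀ := Ioo_mem_nhds (by linarith) (by linarith)
  filter_upwards [hU] with t ht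
  obtain ⟨ht0, ht1⟩ := ht
  by_cases hc : (n : ℝ) ≤ t
  · have : ⌊t⌋ = n := Int.floor_eq_iff.2 ⟨hc, ht1⟩
    rw [Int.fract, this]
  · push Not at hc
    have : ⌊t⌋ = n - 1 := Int.floor_eq_iff.2 ⟨by push_cast; linarith, by push_cast; linarith⟩
    rw [Int.fract, this, hg _ (Or.inr (by push_cast; linarith)), hg _ (Or.inl (by linarith))]
    simp

end Vale.Agent.Lib.P113
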